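import Vale.Agent.P038.Defs

/-!
# The exchange inequality for closed neighbourhoods (unweighted)

`N v` is the closed out-neighbourhood of `v`. `cl N S` is the union of the closed
out-neighbourhoods of the elements of `S`, and `cc N S = |N[S]| - |S|`.
-/

namespace Vale.Agent.P038.H447

variable {V : Type*} [Fintype V] [DecidableEq V]

/-- The closed out-neighbourhood of a set. -/
def cl (N : V → Finset V) (S : Finset V) : Finset V := S.biUnion N

theorem mem_cl {N : V → Finset V} {S : Finset V} {x : V} : x ∈ cl N S ↔ ∃ y ∈ S, x ∈ N y := by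
  simp [cl]

theorem cl_mono {N : V → Finset V} {S T : Finset V} (h : S ⊆ T) : cl N S ⊆ cl N T := by
  intro x hx
  obtain ⟨y, hy, hxy⟩ := mem_cl.1 hx
  exact mem_cl.2 ⟨y, h hy, hxy⟩

theorem subset_cl {N : V → Finset V} (refl : ∀ x, x ∈ N x) (S : Finset V) : S ⊆ cl N S :=
  fun x hx => mem_cl.2 ⟨x, hx, refl x⟩

theorem cl_union {N : V → Finset V} (S T : Finset V) : cl N (S ∪ T) = cl N S ∪ cl N T := by
  ext x
  simp only [mem_cl, Finset.mem_union]
  constructor
  · rintro ⟨y, hy | hy, h⟩
    · exact Or.inl ⟨y, hy, h⟩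
    · exact Or.inr ⟨y, hy, h⟩
  · rintro (⟨y, hy, h⟩ | ⟨y, hy, h⟩)
    · exact ⟨y, Or.inl hy, h⟩
    · exact ⟨y, Or.inr hy, h⟩

/-- The boundary cost `|N[S]| - |S|`. -/
def cc (N : V → Finset V) (S : Finset V) : ℤ := ((cl N S).card : ℤ) - (S.card : ℤ)

/-- The parametric cost `k |N[S]| - M |S|`. -/
def FF (N : V → Finset V) (M k : ℕ) (S : Finset V) : ℤ :=
  (k : ℤ) * ((cl N S).card : ℤ) - (M : ℤ) * (S.card : ℤ)

theorem FF_submod (N : V → Finset V) (M k : ℕ) (S T : Finset V) :
    FF N M k (S ∪ T) + FF N M k (S ∩ T) ≤ FF N M k S + FF N M k T := by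
  have h1 : (S ∪ T).card + (S ∩ T).card = S.card + T.card := Finset.card_union_add_card_inter S T
  have h2 : (cl N S ∪ cl N T).card + (cl N S ∩ cl N T).card = (cl N S).card + (cl N T).card :=
    Finset.card_union_add_card_inter _ _
  have h3 : (cl N (S ∩ T)).card ≤ (cl N S ∩ cl N T).card := by
    apply Finset.card_le_card
    exact Finset.subset_inter (cl_mono Finset.inter_subset_left) (cl_mono Finset.inter_subset_right)
  have h4 : (cl N (S ∪ T)).card + (cl N (S ∩ T)).card ≤ (cl N S).card + (cl N T).card := by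
    rw [cl_union]
    omega
  have h1' : ((S ∪ T).card : ℤ) + ((S ∩ T).card : ℤ) = (S.card : ℤ) + (T.card : ℤ) := by
    exact_mod_cast h1
  have h4' : ((cl N (S ∪ T)).card : ℤ) + ((cl N (S ∩ T)).card : ℤ) ≤
      ((cl N S).card : ℤ) + ((cl N T).card : ℤ) := by exact_mod_cast h4
  have hk : (0 : ℤ) ≤ (k : ℤ) := Int.natCast_nonneg k
  have h5 := mul_le_mul_of_nonneg_left h4' hk
  have h6 : (M : ℤ) * (((S ∪ T).card : ℤ) + ((S ∩ T).card : ℤ)) =
      (M : ℤ) * ((S.card : ℤ) + (T.card : ℤ)) := by rw [h1']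
  unfold FF
  linarith [h5, h6]

/-- A minimiser of a function on an interval of finite sets. -/
theorem exists_min (F : Finset V → ℤ) {L U : Finset V} (h : L ⊆ U) :
    ∃ W, L ⊆ W ∧ W ⊆ U ∧ ∀ W', L ⊆ W' → W' ⊆ U → F W ≤ F W' := by
  have hne : ((Finset.univ : Finset (Finset V)).filter (fun W => L ⊆ W ∧ W ⊆ U)).Nonempty :=
    ⟨L, by simp [h]⟩
  obtain ⟨W, hW, hmin⟩ := Finset.exists_min_image _ F hne
  rw [Finset.mem_filter] at hW
  refine ⟨W, hW.2.1, hW.2.2, fun W' h1 h2 => hmin W' ?_⟩
  simp [h1, h2]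

/-- The intersection of the members of a family over the closed in-neighbourhood of `a`. -/
def inf (N : V → Finset V) (P : V → Finset V) (a : V) : Finset V :=
  Finset.univ.filter fun x => ∀ s, a ∈ N s → x ∈ P s

theorem mem_inf {N : V → Finset V} {P : V → Finset V} {a x : V} :
    x ∈ inf N P a ↔ ∀ s, a ∈ N s → x ∈ P s := by
  simp [inf]

/-- Intersections of interval minimisers: cutting down does not increase the cost. -/
theorem FF_cut (N : V → Finset V) (M k : ℕ) {P Q S : V → Finset V}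
    (hPS : ∀ s, P s ⊆ S s) (hSQ : ∀ s, S s ⊆ Q s)
    (hmin : ∀ s W', P s ⊆ W' → W' ⊆ Q s → FF N M k (S s) ≤ FF N M k W')
    (a : V) {Z : Finset V} (hZ : Z ⊆ inf N Q a) :
    FF N M k (Z ∩ inf N S a) ≤ FF N M k Z := by
  have key : ∀ I : Finset V, (∀ s ∈ I, a ∈ N s) →
      FF N M k (Z.filter fun x => ∀ s ∈ I, x ∈ S s) ≤ FF N M k Z := by
    intro I
    induction I using Finset.induction_on with
    | empty => intro _; simp
    | insert s I hs ih =>
      intro hI
      have ih' := ih fun t ht => hI t (Finset.mem_insert_of_mem ht)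
      set Z' := Z.filter fun x => ∀ t ∈ I, x ∈ S t with hZ'
      have e : (Z.filter fun x => ∀ t ∈ insert s I, x ∈ S t) = S s ∩ Z' := by
        ext x
        simp only [hZ', Finset.mem_filter, Finset.mem_insert, forall_eq_or_imp, Finset.mem_inter]
        tauto
      rw [e]
      have hsub : S s ∪ Z' ⊆ Q s := by
        apply Finset.union_subset (hSQ s)
        intro x hx
        have hxZ : x ∈ Z := (Finset.mem_filter.1 hx).1
        exact mem_inf.1 (hZ hxZ) s (hI s (Finset.mem_insert_self s I))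
      have h1 := hmin s (S s ∪ Z') ((hPS s).trans Finset.subset_union_left) hsub
      have h2 := FF_submod N M k (S s) Z'
      linarith
  have h := key (Finset.univ.filter fun s => a ∈ N s) (by simp)
  have e : (Z.filter fun x => ∀ s ∈ Finset.univ.filter (fun s => a ∈ N s), x ∈ S s) =
      Z ∩ inf N S a := by
    ext x
    simp [mem_inf]
  rwa [e] at h

/-- Counting pairs: rows against columns. -/
theorem sum_card_comm (R : V → V → Prop) [∀ a b, Decidable (R a b)] :
    ∑ a : V, (Finset.univ.filter fun b => R a b).card =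
      ∑ b : V, (Finset.univ.filter fun a => R a b).card := by
  simp only [Finset.card_filter]
  exact Finset.sum_comm

/-- The exchange theorem: from an outer pair one gets an inner pair of no larger cost. -/
theorem exchange (N : V → Finset V) (refl : ∀ x, x ∈ N x)
    (P T : V → Finset V) (hP : ∀ a, N a ⊆ P a) (hT : ∀ b, N b ⊆ T b)
    (hPT : ∀ a b, b ∈ P a → a ∈ T b → a = b) :
    ∃ X Y : V → Finset V, (∀ a, a ∈ X a) ∧ (∀ b, b ∈ Y b) ∧
      (∀ a b, b ∈ cl N (X a) → a ∈ cl N (Y b) → a = b) ∧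
      ∑ a, cc N (X a) + ∑ b, cc N (Y b) ≤ ∑ a, cc N (P a) + ∑ b, cc N (T b) := by
  classical
  set n : ℕ := Fintype.card V with hn
  set M : ℕ := n * n + 1 with hM
  -- the upper sets
  let Q : V → Finset V := fun a => Finset.univ.filter fun b => b = a ∨ a ∉ T b
  have memQ : ∀ a b, b ∈ Q a ↔ (b = a ∨ a ∉ T b) := by intro a b; simp [Q]
  have hPQ : ∀ a, P a ⊆ Q a := by
    intro a b hb
    rw [memQ]
    by_cases h : b = a
    · exact Or.inl h
    · right
      intro h2
      exact h (hPT a b hb h2).symm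
  have hNQ : ∀ a, N a ⊆ Q a := fun a => (hP a).trans (hPQ a)
  -- the geometric fact used three times
  have geo : ∀ a b x, x ∈ Q b → x ∈ Q a → b ∈ N x → a ∈ N b → a = b := by
    intro a b x h1 h2 h3 h4
    have hxb : x = b := by
      rcases (memQ b x).1 h1 with h | h
      · exact h
      · exact absurd (hT x h3) h
    subst hxb
    rcases (memQ a x).1 h2 with h | h
    · exact h.symm
    · exact absurd (hT x h4) h
  -- lower sets: minimisers of the boundary cost
  have exP : ∀ a, ∃ W, N a ⊆ W ∧ W ⊆ Q a ∧ ∀ W', N a ⊆ W' → W' ⊆ Q a → cc N W ≤ cc N W' :=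
    fun a => exists_min (cc N) (hNQ a)
  choose P' hNP' hP'Q hP'min using exP
  have hcost : ∀ a, cc N (P' a) ≤ cc N (P a) := fun a => hP'min a (P a) (hP a) (hPQ a)
  -- parametric minimisers
  have exW : ∀ (k : ℕ) (a : V), ∃ W, P' a ⊆ W ∧ W ⊆ Q a ∧
      ∀ W', P' a ⊆ W' → W' ⊆ Q a → FF N M k W ≤ FF N M k W' :=
    fun k a => exists_min (FF N M k) (hP'Q a)
  choose W hP'W hWQ hWmin using exW
  -- minimisers on the intersections
  have hIJ : ∀ a, inf N P' a ⊆ inf N Q a := by
    intro a x hx
    rw [mem_inf] at hx ⊢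
    exact fun s hs => hP'Q s (hx s hs)
  have exZ : ∀ (k : ℕ) (a : V), ∃ Z, inf N P' a ⊆ Z ∧ Z ⊆ inf N Q a ∧
      ∀ Z', inf N P' a ⊆ Z' → Z' ⊆ inf N Q a → FF N M k Z ≤ FF N M k Z' :=
    fun k a => exists_min (FF N M k) (hIJ a)
  choose Z hIZ hZJ hZmin using exZ
  -- rows: upper estimate
  have rowW : ∀ a, ∑ k ∈ Finset.range M, ((cl N (W (k + 1) a)).card : ℤ) ≤
      (M : ℤ) * cc N (P' a) + (M : ℤ) * ((Q a).card : ℤ) := by
    intro a
    have step : ∀ k, ((cl N (W (k + 1) a)).card : ℤ) ≤
        FF N M (k + 1) (W (k + 1) a) - FF N M k (W k a) := by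
      intro k
      have h := hWmin k a (W (k + 1) a) (hP'W (k + 1) a) (hWQ (k + 1) a)
      have e : FF N M (k + 1) (W (k + 1) a) = FF N M k (W (k + 1) a) +
          ((cl N (W (k + 1) a)).card : ℤ) := by
        unfold FF; push_cast; ring
      linarith
    have hs : ∑ k ∈ Finset.range M, ((cl N (W (k + 1) a)).card : ℤ) ≤
        ∑ k ∈ Finset.range M, (FF N M (k + 1) (W (k + 1) a) - FF N M k (W k a)) :=
      Finset.sum_le_sum fun k _ => step k
    rw [Finset.sum_range_sub (fun k => FF N M k (W k a)) M] at hs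
    have h1 : FF N M M (W M a) ≤ (M : ℤ) * cc N (P' a) := by
      have h := hWmin M a (P' a) (Finset.Subset.refl _) (hP'Q a)
      have e : FF N M M (P' a) = (M : ℤ) * cc N (P' a) := by unfold FF cc; ring
      linarith
    have h2 : -((M : ℤ) * ((Q a).card : ℤ)) ≤ FF N M 0 (W 0 a) := by
      have hc : ((W 0 a).card : ℤ) ≤ ((Q a).card : ℤ) := by
        exact_mod_cast Finset.card_le_card (hWQ 0 a)
      have := mul_le_mul_of_nonneg_left hc (Int.natCast_nonneg M)
      unfold FF
      push_cast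
      linarith
    linarith
  -- intersections: lower estimate
  have rowI : ∀ a, (M : ℤ) * cc N (inf N P' a) + (M : ℤ) * ((inf N Q a).card : ℤ) ≤
      ∑ k ∈ Finset.range M, ((cl N (inf N (W k) a)).card : ℤ) := by
    intro a
    have step : ∀ k, FF N M (k + 1) (Z (k + 1) a) - FF N M k (Z k a) ≤
        ((cl N (inf N (W k) a)).card : ℤ) := by
      intro k
      set Z' := Z k a ∩ inf N (W k) a with hZ'
      have hI : inf N P' a ⊆ Z' := by
        apply Finset.subset_inter (hIZ k a)
        intro x hx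
        rw [mem_inf] at hx ⊢
        exact fun s hs => hP'W k s (hx s hs)
      have hJ : Z' ⊆ inf N Q a := Finset.inter_subset_left.trans (hZJ k a)
      have h1 := hZmin (k + 1) a Z' hI hJ
      have h2 : FF N M k Z' ≤ FF N M k (Z k a) :=
        FF_cut N M k (hP'W k) (hWQ k) (hWmin k) a (hZJ k a)
      have e : FF N M (k + 1) Z' = FF N M k Z' + ((cl N Z').card : ℤ) := by
        unfold FF; push_cast; ring
      have h3 : ((cl N Z').card : ℤ) ≤ ((cl N (inf N (W k) a)).card : ℤ) := by
        exact_mod_cast Finset.card_le_card (cl_mono Finset.inter_subset_right)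
      linarith
    have hs : ∑ k ∈ Finset.range M, (FF N M (k + 1) (Z (k + 1) a) - FF N M k (Z k a)) ≤
        ∑ k ∈ Finset.range M, ((cl N (inf N (W k) a)).card : ℤ) :=
      Finset.sum_le_sum fun k _ => step k
    rw [Finset.sum_range_sub (fun k => FF N M k (Z k a)) M] at hs
    have h1 : (M : ℤ) * cc N (inf N P' a) ≤ FF N M M (Z M a) := by
      have hm : ∀ s W', P' s ⊆ W' → W' ⊆ Q s → FF N M M (P' s) ≤ FF N M M W' := by
        intro s W' hl hu
        have h := hP'min s W' ((hNP' s).trans hl) hu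
        have := mul_le_mul_of_nonneg_left h (Int.natCast_nonneg M)
        unfold cc at this
        unfold FF
        linarith
      have h := FF_cut N M M (fun s => Finset.Subset.refl (P' s)) hP'Q hm a (hZJ M a)
      have e : Z M a ∩ inf N P' a = inf N P' a := Finset.inter_eq_right.2 (hIZ M a)
      rw [e] at h
      have e2 : FF N M M (inf N P' a) = (M : ℤ) * cc N (inf N P' a) := by unfold FF cc; ring
      linarith
    have h2 : FF N M 0 (Z 0 a) ≤ -((M : ℤ) * ((inf N Q a).card : ℤ)) := by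
      have h := hZmin 0 a (inf N Q a) (hIJ a) (Finset.Subset.refl _)
      have e : FF N M 0 (inf N Q a) = -((M : ℤ) * ((inf N Q a).card : ℤ)) := by
        unfold FF; push_cast; ring
      linarith
    linarith
  -- the outer columns
  have colT : ∑ a, (((Q a).card : ℤ) - ((inf N Q a).card : ℤ)) ≤ ∑ b, cc N (T b) := by
    have hJQ : ∀ a, inf N Q a ⊆ Q a := fun a x hx => mem_inf.1 hx a (refl a)
    have h1 : ∀ a, (((Q a).card : ℤ) - ((inf N Q a).card : ℤ)) =
        ((Finset.univ.filter fun b => b ∈ Q a ∧ b ∉ inf N Q a).card : ℤ) := by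
      intro a
      have e : (Finset.univ.filter fun b => b ∈ Q a ∧ b ∉ inf N Q a) = Q a \ inf N Q a := by
        ext b; simp
      rw [e, Finset.card_sdiff_of_subset (hJQ a), Nat.cast_sub (Finset.card_le_card (hJQ a))]
    have h2 : ∀ b, ((Finset.univ.filter fun a => b ∈ Q a ∧ b ∉ inf N Q a).card : ℤ) ≤
        cc N (T b) := by
      intro b
      have hsub : (Finset.univ.filter fun a => b ∈ Q a ∧ b ∉ inf N Q a) ⊆ cl N (T b) \ T b := by
        intro a ha
        rw [Finset.mem_filter] at ha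
        obtain ⟨-, h3, h4⟩ := ha
        rw [mem_inf] at h4
        push Not at h4
        obtain ⟨s, hs, hbs⟩ := h4
        have hbs' : b ≠ s ∧ s ∈ T b := by
          rw [memQ] at hbs
          push Not at hbs
          exact hbs
        have hab : b ≠ a := by
          rintro rfl
          exact hbs (hNQ s hs)
        have haT : a ∉ T b := by
          rcases (memQ a b).1 h3 with h | h
          · exact absurd h hab
          · exact h
        rw [Finset.mem_sdiff]
        exact ⟨mem_cl.2 ⟨s, hbs'.2, hs⟩, haT⟩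
      have h5 := Finset.card_le_card hsub
      rw [Finset.card_sdiff_of_subset (subset_cl refl (T b))] at h5
      have h6 := Finset.card_le_card (subset_cl refl (T b))
      unfold cc
      omega
    calc ∑ a, (((Q a).card : ℤ) - ((inf N Q a).card : ℤ))
        = ∑ a, ((Finset.univ.filter fun b => b ∈ Q a ∧ b ∉ inf N Q a).card : ℤ) :=
          Finset.sum_congr rfl fun a _ => h1 a
      _ = ∑ b, ((Finset.univ.filter fun a => b ∈ Q a ∧ b ∉ inf N Q a).card : ℤ) := by
          exact_mod_cast sum_card_comm (fun a b => b ∈ Q a ∧ b ∉ inf N Q a)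
      _ ≤ ∑ b, cc N (T b) := Finset.sum_le_sum fun b _ => h2 b
  -- the inner pair for a parameter
  let Y : ℕ → V → Finset V := fun k b => Finset.univ.filter fun a => a = b ∨ b ∉ cl N (W k a)
  have memY : ∀ k b a, a ∈ Y k b ↔ (a = b ∨ b ∉ cl N (W k a)) := by intro k b a; simp [Y]
  have colY : ∀ k, ∑ b, cc N (Y k b) ≤
      ∑ a, (((cl N (W k a)).card : ℤ) - ((cl N (inf N (W k) a)).card : ℤ)) := by
    intro k
    have hIW : ∀ a, inf N (W k) a ⊆ W k a := fun a x hx => mem_inf.1 hx a (refl a)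
    have h1 : ∀ b, cc N (Y k b) =
        ((Finset.univ.filter fun a => a ∈ cl N (Y k b) ∧ a ∉ Y k b).card : ℤ) := by
      intro b
      have e : (Finset.univ.filter fun a => a ∈ cl N (Y k b) ∧ a ∉ Y k b) =
          cl N (Y k b) \ Y k b := by
        ext a; simp
      rw [e, Finset.card_sdiff_of_subset (subset_cl refl _),
        Nat.cast_sub (Finset.card_le_card (subset_cl refl _))]
      rfl
    have h2 : ∀ a, ((Finset.univ.filter fun b => a ∈ cl N (Y k b) ∧ a ∉ Y k b).card : ℤ) ≤
        (((cl N (W k a)).card : ℤ) - ((cl N (inf N (W k) a)).card : ℤ)) := by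
      intro a
      have hsub : (Finset.univ.filter fun b => a ∈ cl N (Y k b) ∧ a ∉ Y k b) ⊆
          cl N (W k a) \ cl N (inf N (W k) a) := by
        intro b hb
        rw [Finset.mem_filter] at hb
        obtain ⟨-, h3, h4⟩ := hb
        rw [memY] at h4
        push Not at h4
        obtain ⟨hab, hbW⟩ := h4
        rw [Finset.mem_sdiff]
        refine ⟨hbW, fun hb2 => ?_⟩
        obtain ⟨x, hx, hbx⟩ := mem_cl.1 hb2
        obtain ⟨y, hy, hay⟩ := mem_cl.1 h3
        rw [mem_inf] at hx
        have hxy := hx y hay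
        rcases (memY k b y).1 hy with h | h
        · subst h
          exact hab (geo a y x (hWQ k y hxy) (hWQ k a (hx a (refl a))) hbx hay)
        · exact h (mem_cl.2 ⟨x, hxy, hbx⟩)
      have h5 := Finset.card_le_card hsub
      rw [Finset.card_sdiff_of_subset (cl_mono (hIW a))] at h5
      have h6 := Finset.card_le_card (cl_mono (N := N) (hIW a))
      omega
    calc ∑ b, cc N (Y k b)
        = ∑ b, ((Finset.univ.filter fun a => a ∈ cl N (Y k b) ∧ a ∉ Y k b).card : ℤ) :=
          Finset.sum_congr rfl fun b _ => h1 b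
      _ = ∑ a, ((Finset.univ.filter fun b => a ∈ cl N (Y k b) ∧ a ∉ Y k b).card : ℤ) := by
          exact_mod_cast sum_card_comm (fun b a => a ∈ cl N (Y k b) ∧ a ∉ Y k b)
      _ ≤ _ := Finset.sum_le_sum fun a _ => h2 a
  -- feasibility
  have hX : ∀ a, a ∈ inf N P' a := by
    intro a
    rw [mem_inf]
    exact fun s hs => hNP' s hs
  have hY : ∀ k b, b ∈ Y k b := fun k b => (memY k b b).2 (Or.inl rfl)
  have feas : ∀ k a b, b ∈ cl N (inf N P' a) → a ∈ cl N (Y k b) → a = b := by
    intro k a b hb ha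
    obtain ⟨x, hx, hbx⟩ := mem_cl.1 hb
    obtain ⟨y, hy, hay⟩ := mem_cl.1 ha
    rw [mem_inf] at hx
    have hxy := hx y hay
    rcases (memY k b y).1 hy with h | h
    · subst h
      exact geo a y x (hP'Q y hxy) (hP'Q a (hx a (refl a))) hbx hay
    · exact absurd (mem_cl.2 ⟨x, hP'W k y hxy, hbx⟩) h
  -- averaging over the parameter
  by_contra hcon
  push Not at hcon
  set C : ℤ := ∑ a, cc N (P a) + ∑ b, cc N (T b) with hC
  have hbig : ∀ k, C + 1 ≤ ∑ a, cc N (inf N P' a) + ∑ b, cc N (Y k b) := by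
    intro k
    have := hcon (inf N P') (Y k) hX (hY k) (feas k)
    omega
  have hsum : (M : ℤ) * (C + 1) ≤ ∑ k ∈ Finset.range M,
      (∑ a, cc N (inf N P' a) + ∑ b, cc N (Y (k + 1) b)) := by
    have h := Finset.sum_le_sum (s := Finset.range M) (fun k _ => hbig (k + 1))
    simpa [Finset.sum_const, Finset.card_range, nsmul_eq_mul] using h
  have hup : ∑ k ∈ Finset.range M, (∑ a, cc N (inf N P' a) + ∑ b, cc N (Y (k + 1) b)) ≤
      (M : ℤ) * C + (n : ℤ) * (n : ℤ) := by
    have h1 : ∑ k ∈ Finset.range M, (∑ a, cc N (inf N P' a) + ∑ b, cc N (Y (k + 1) b)) ≤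
        ∑ k ∈ Finset.range M, (∑ a, cc N (inf N P' a) +
          ∑ a, (((cl N (W (k + 1) a)).card : ℤ) - ((cl N (inf N (W (k + 1)) a)).card : ℤ))) :=
      Finset.sum_le_sum fun k _ => by linarith [colY (k + 1)]
    have h2 : ∑ k ∈ Finset.range M, (∑ a, cc N (inf N P' a) +
          ∑ a, (((cl N (W (k + 1) a)).card : ℤ) - ((cl N (inf N (W (k + 1)) a)).card : ℤ))) =
        ∑ a, ((M : ℤ) * cc N (inf N P' a) +
          (∑ k ∈ Finset.range M, ((cl N (W (k + 1) a)).card : ℤ) -
            ∑ k ∈ Finset.range M, ((cl N (inf N (W (k + 1)) a)).card : ℤ))) := by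
      rw [Finset.sum_add_distrib, Finset.sum_const, Finset.card_range, nsmul_eq_mul,
        Finset.sum_comm, Finset.mul_sum, ← Finset.sum_add_distrib]
      refine Finset.sum_congr rfl fun a _ => ?_
      rw [Finset.sum_sub_distrib]
    have shift : ∀ a, (M : ℤ) * cc N (inf N P' a) + (M : ℤ) * ((inf N Q a).card : ℤ) ≤
        (n : ℤ) + ∑ k ∈ Finset.range M, ((cl N (inf N (W (k + 1)) a)).card : ℤ) := by
      intro a
      have h := rowI a
      have e1 := Finset.sum_range_succ' (fun k => ((cl N (inf N (W k) a)).card : ℤ)) M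
      have e2 := Finset.sum_range_succ (fun k => ((cl N (inf N (W k) a)).card : ℤ)) M
      have h0 : ((cl N (inf N (W 0) a)).card : ℤ) ≤ (n : ℤ) := by
        exact_mod_cast Finset.card_le_univ _
      have h3 : (0 : ℤ) ≤ ((cl N (inf N (W M) a)).card : ℤ) := Int.natCast_nonneg _
      linarith
    have h3 : ∀ a ∈ (Finset.univ : Finset V), ((M : ℤ) * cc N (inf N P' a) +
          (∑ k ∈ Finset.range M, ((cl N (W (k + 1) a)).card : ℤ) -
            ∑ k ∈ Finset.range M, ((cl N (inf N (W (k + 1)) a)).card : ℤ))) ≤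
        (M : ℤ) * cc N (P a) + (M : ℤ) * (((Q a).card : ℤ) - ((inf N Q a).card : ℤ)) + (n : ℤ) := by
      intro a _
      have h4 := mul_le_mul_of_nonneg_left (hcost a) (Int.natCast_nonneg M)
      have h5 := rowW a
      have h6 := shift a
      linarith
    have h4 := Finset.sum_le_sum h3
    have h5 : ∑ a : V, ((M : ℤ) * cc N (P a) +
        (M : ℤ) * (((Q a).card : ℤ) - ((inf N Q a).card : ℤ)) + (n : ℤ)) =
        (M : ℤ) * ∑ a, cc N (P a) +
          (M : ℤ) * ∑ a, (((Q a).card : ℤ) - ((inf N Q a).card : ℤ)) + (n : ℤ) * (n : ℤ) := by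
      rw [Finset.sum_add_distrib, Finset.sum_add_distrib, Finset.mul_sum, Finset.mul_sum,
        Finset.sum_const, Finset.card_univ, nsmul_eq_mul]
    have h6 := mul_le_mul_of_nonneg_left colT (Int.natCast_nonneg M)
    rw [h2] at h1
    rw [hC]
    linarith
  have : (M : ℤ) ≤ (n : ℤ) * (n : ℤ) := by linarith
  have hMn : (M : ℤ) = (n : ℤ) * (n : ℤ) + 1 := by rw [hM]; push_cast; ring
  linarith

end Vale.Agent.P038.H447
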