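import Vale.Agent.P038.H447.Core

/-!
# Seymour's second neighbourhood conjecture

(B) The deletion argument in an arc-minimal counterexample, (C) the combination with the
exchange theorem, (D) the final theorem.
-/

namespace Vale.Agent.P038.H447

variable {V : Type*} [Fintype V] [DecidableEq V]

/-- Counterexamples, in terms of closed out-neighbourhoods. -/
structure CE (N : V → Finset V) : Prop where
  /-- closed neighbourhoods contain their centre -/
  refl : ∀ x, x ∈ N x
  /-- no two opposite arcs -/
  anti : ∀ x y, y ∈ N x → x ∈ N y → x = y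
  /-- every second neighbourhood is smaller than the first one -/
  ce : ∀ v, (cl N (N v)).card + 2 ≤ 2 * (N v).card

/-- In an arc-minimal counterexample the boundary cost drops strictly under closure. -/
theorem strictG {N : V → Finset V} (h : CE N)
    (hmin : ∀ N' : V → Finset V, CE N' → ∑ v, (N v).card ≤ ∑ v, (N' v).card)
    (X : Finset V) (hX : cl N X ≠ X) : cc N (cl N X) < cc N X := by
  classical
  by_contra hcon
  push Not at hcon
  set L := cl N X \ X with hL
  let d : Finset V → ℤ := fun T => ((cl N T \ X).card : ℤ) - 2 * (T.card : ℤ)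
  have hXcl := subset_cl h.refl X
  have e1 : cl N (cl N X) \ X = cl N L \ X := by
    ext z
    simp only [Finset.mem_sdiff]
    constructor
    · rintro ⟨hz, hzX⟩
      refine ⟨?_, hzX⟩
      obtain ⟨y, hy, hzy⟩ := mem_cl.1 hz
      by_cases hyX : y ∈ X
      · have hzL : z ∈ L := Finset.mem_sdiff.2 ⟨mem_cl.2 ⟨y, hyX, hzy⟩, hzX⟩
        exact mem_cl.2 ⟨z, hzL, h.refl z⟩
      · exact mem_cl.2 ⟨y, Finset.mem_sdiff.2 ⟨hy, hyX⟩, hzy⟩
    · rintro ⟨hz, hzX⟩
      exact ⟨cl_mono Finset.sdiff_subset hz, hzX⟩
  have c1 : (cl N (cl N X)).card = (cl N L \ X).card + X.card := by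
    rw [← e1]
    exact (Finset.card_sdiff_add_card_eq_card (hXcl.trans (subset_cl h.refl _))).symm
  have c2 : (cl N X).card = L.card + X.card :=
    (Finset.card_sdiff_add_card_eq_card hXcl).symm
  have hdL : 0 ≤ d L := by
    unfold cc at hcon
    simp only [d]
    omega
  have hd0 : d ∅ = 0 := by simp [d, cl]
  -- a minimiser different from `L`
  have exT : ∃ T, T ⊆ L ∧ T ≠ L ∧ ∀ T', T' ⊆ L → d T ≤ d T' := by
    obtain ⟨T, -, hTL, hTmin⟩ := exists_min d (Finset.empty_subset L)
    by_cases hT : T = L
    · refine ⟨∅, Finset.empty_subset L, ?_, fun T' hT' => ?_⟩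
      · intro h0
        apply hX
        apply Finset.Subset.antisymm _ hXcl
        rw [← Finset.sdiff_eq_empty_iff_subset]
        exact h0.symm
      · have h1 := hTmin T' (Finset.empty_subset _) hT'
        rw [hT] at h1
        linarith
    · exact ⟨T, hTL, hT, fun T' h' => hTmin T' (Finset.empty_subset _) h'⟩
  obtain ⟨T, hTL, hTne, hTmin⟩ := exT
  set R := L \ T with hR
  have hRne : R.Nonempty := by
    rw [hR, Finset.sdiff_nonempty]
    exact fun h' => hTne (Finset.Subset.antisymm hTL h')
  -- the new digraph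
  let N' : V → Finset V := fun y => if y ∈ X then N y \ R else N y
  have hN'in : ∀ y, y ∈ X → N' y = N y \ R := fun y hy => by simp [N', hy]
  have hN'out : ∀ y, y ∉ X → N' y = N y := fun y hy => by simp [N', hy]
  have hN'sub : ∀ y, N' y ⊆ N y := by
    intro y
    by_cases hy : y ∈ X
    · rw [hN'in y hy]; exact Finset.sdiff_subset
    · rw [hN'out y hy]
  have hRX : ∀ z, z ∈ R → z ∉ X := fun z hz =>
    (Finset.mem_sdiff.1 (Finset.mem_sdiff.1 hz).1).2
  have hRL : ∀ z, z ∈ R → z ∈ cl N X := fun z hz =>
    (Finset.mem_sdiff.1 (Finset.mem_sdiff.1 hz).1).1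
  have hclsub : ∀ S S', S ⊆ S' → cl N' S ⊆ cl N S' := by
    intro S S' hSS z hz
    obtain ⟨u, hu, hzu⟩ := mem_cl.1 hz
    exact mem_cl.2 ⟨u, hSS hu, hN'sub u hzu⟩
  have hCE : CE N' := by
    refine ⟨?_, ?_, ?_⟩
    · intro x
      by_cases hx : x ∈ X
      · rw [hN'in x hx]
        exact Finset.mem_sdiff.2 ⟨h.refl x, fun hR' => hRX x hR' hx⟩
      · rw [hN'out x hx]; exact h.refl x
    · intro x y h1 h2
      exact h.anti x y (hN'sub x h1) (hN'sub y h2)
    · intro y
      by_cases hy : y ∈ X
      · set D := N y ∩ R with hD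
        set E := cl N D \ (cl N T ∪ X) with hE
        have hDR : ∀ z, z ∈ D → z ∈ R := fun z hz => (Finset.mem_inter.1 hz).2
        have hDT : Disjoint T D := by
          rw [Finset.disjoint_left]
          intro z hzT hzD
          exact (Finset.mem_sdiff.1 (hDR z hzD)).2 hzT
        have hTD : T ∪ D ⊆ L := by
          apply Finset.union_subset hTL
          intro z hz
          exact (Finset.mem_sdiff.1 (hDR z hz)).1
        have h1 := hTmin (T ∪ D) hTD
        have c3 : (T ∪ D).card = T.card + D.card := Finset.card_union_of_disjoint hDT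
        have c4 : (cl N (T ∪ D) \ X).card = (cl N T \ X).card + E.card := by
          rw [← Finset.card_union_of_disjoint]
          · congr 1
            rw [cl_union]
            ext z
            simp only [hE, Finset.mem_sdiff, Finset.mem_union]
            tauto
          · rw [Finset.disjoint_left]
            intro z hz hz2
            exact (Finset.mem_sdiff.1 hz2).2
              (Finset.mem_union_left _ (Finset.mem_sdiff.1 hz).1)
        have hE2 : 2 * D.card ≤ E.card := by
          simp only [d] at h1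
          omega
        have c5 : (N' y).card + D.card = (N y).card := by
          rw [hN'in y hy, hD, Finset.card_sdiff_add_card_inter]
        have hsub : cl N' (N' y) ⊆ cl N (N y) \ E := by
          intro z hz
          rw [Finset.mem_sdiff]
          refine ⟨hclsub _ _ (hN'sub y) hz, fun hzE => ?_⟩
          obtain ⟨u, hu, hzu⟩ := mem_cl.1 hz
          rw [hN'in y hy, Finset.mem_sdiff] at hu
          obtain ⟨-, hzTX⟩ := Finset.mem_sdiff.1 hzE
          rw [Finset.mem_union, not_or] at hzTX
          obtain ⟨hzT, hzX⟩ := hzTX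
          by_cases huX : u ∈ X
          · rw [hN'in u huX, Finset.mem_sdiff] at hzu
            have hzL : z ∈ L := Finset.mem_sdiff.2 ⟨mem_cl.2 ⟨u, huX, hzu.1⟩, hzX⟩
            have hzT' : z ∈ T := by
              by_contra hc
              exact hzu.2 (Finset.mem_sdiff.2 ⟨hzL, hc⟩)
            exact hzT (subset_cl h.refl T hzT')
          · have huL : u ∈ L := Finset.mem_sdiff.2 ⟨mem_cl.2 ⟨y, hy, hu.1⟩, huX⟩
            have huT : u ∈ T := by
              by_contra hc
              exact hu.2 (Finset.mem_sdiff.2 ⟨huL, hc⟩)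
            exact hzT (mem_cl.2 ⟨u, huT, hN'sub u hzu⟩)
        have hEsub : E ⊆ cl N (N y) :=
          Finset.sdiff_subset.trans (cl_mono Finset.inter_subset_left)
        have c6 := Finset.card_le_card hsub
        have c7 := Finset.card_sdiff_add_card_eq_card hEsub
        have c8 := h.ce y
        omega
      · have c1 := Finset.card_le_card (hclsub (N' y) (N y) (hN'sub y))
        have c2 := h.ce y
        rw [hN'out y hy] at c1 ⊢
        omega
  -- fewer arcs
  obtain ⟨r, hr⟩ := hRne
  obtain ⟨y, hy, hry⟩ := mem_cl.1 (hRL r hr)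
  have hlt : ∑ v, (N' v).card < ∑ v, (N v).card := by
    apply Finset.sum_lt_sum
    · exact fun v _ => Finset.card_le_card (hN'sub v)
    · refine ⟨y, Finset.mem_univ y, Finset.card_lt_card ?_⟩
      rw [Finset.ssubset_iff_of_subset (hN'sub y)]
      refine ⟨r, hry, ?_⟩
      rw [hN'in y hy]
      simp [hr]
  have := hmin N' hCE
  omega

/-- There is no arc-minimal counterexample. -/
theorem no_min_CE [Nonempty V] {N : V → Finset V} (h : CE N)
    (hmin : ∀ N' : V → Finset V, CE N' → ∑ v, (N v).card ≤ ∑ v, (N' v).card) : False := by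
  classical
  have G : ∀ X, cl N X ≠ X → cc N (cl N X) < cc N X := strictG h hmin
  have Gle : ∀ X, cc N (cl N X) ≤ cc N X := by
    intro X
    by_cases hX : cl N X = X
    · rw [hX]
    · exact (G X hX).le
  -- inner pairs
  let Inner : (V → Finset V) × (V → Finset V) → Prop := fun p =>
    (∀ a, a ∈ p.1 a) ∧ (∀ b, b ∈ p.2 b) ∧
      ∀ a b, b ∈ cl N (p.1 a) → a ∈ cl N (p.2 b) → a = b
  let cost : (V → Finset V) × (V → Finset V) → ℤ := fun p =>
    ∑ a, cc N (p.1 a) + ∑ b, cc N (p.2 b)
  have hne : ((Finset.univ : Finset ((V → Finset V) × (V → Finset V))).filter Inner).Nonempty := by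
    refine ⟨(fun a => {a}, fun b => {b}), ?_⟩
    rw [Finset.mem_filter]
    refine ⟨Finset.mem_univ _, ?_, ?_, ?_⟩
    · intro a; simp
    · intro a; simp
    · intro a b h1 h2
      simp only [cl, Finset.singleton_biUnion] at h1 h2
      exact h.anti a b h1 h2
  obtain ⟨p, hp, hpmin⟩ := Finset.exists_min_image _ cost hne
  rw [Finset.mem_filter] at hp
  obtain ⟨-, hX, hY, hXY⟩ := hp
  obtain ⟨X', Y', hX', hY', hXY', hle⟩ := exchange N h.refl (fun a => cl N (p.1 a))
    (fun b => cl N (p.2 b)) (fun a x hx => mem_cl.2 ⟨a, hX a, hx⟩)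
    (fun b x hx => mem_cl.2 ⟨b, hY b, hx⟩) hXY
  have h1 := hpmin (X', Y')
    (by rw [Finset.mem_filter]; exact ⟨Finset.mem_univ _, hX', hY', hXY'⟩)
  simp only [cost] at h1
  have h2 : ∑ a, cc N (cl N (p.1 a)) ≤ ∑ a, cc N (p.1 a) := Finset.sum_le_sum fun a _ => Gle _
  have h3 : ∑ a, cc N (cl N (p.2 a)) ≤ ∑ a, cc N (p.2 a) := Finset.sum_le_sum fun a _ => Gle _
  have hXc : ∀ a, cl N (p.1 a) = p.1 a := by
    by_contra hcon
    push Not at hcon
    obtain ⟨a, ha⟩ := hcon
    have h4 : ∑ a, cc N (cl N (p.1 a)) < ∑ a, cc N (p.1 a) :=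
      Finset.sum_lt_sum (fun a _ => Gle _) ⟨a, Finset.mem_univ a, G _ ha⟩
    linarith
  have hYc : ∀ a, cl N (p.2 a) = p.2 a := by
    by_contra hcon
    push Not at hcon
    obtain ⟨a, ha⟩ := hcon
    have h4 : ∑ a, cc N (cl N (p.2 a)) < ∑ a, cc N (p.2 a) :=
      Finset.sum_lt_sum (fun a _ => Gle _) ⟨a, Finset.mem_univ a, G _ ha⟩
    linarith
  -- a minimal nonempty closed set
  have hne2 : ((Finset.univ : Finset (Finset V)).filter
      fun S => S.Nonempty ∧ cl N S = S).Nonempty := by
    refine ⟨Finset.univ, ?_⟩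
    rw [Finset.mem_filter]
    exact ⟨Finset.mem_univ _, Finset.univ_nonempty,
      Finset.Subset.antisymm (Finset.subset_univ _) (subset_cl h.refl _)⟩
  obtain ⟨S, hS, hSmin⟩ := Finset.exists_min_image _ Finset.card hne2
  rw [Finset.mem_filter] at hS
  obtain ⟨-, ⟨a, ha⟩, hSc⟩ := hS
  have hsub : ∀ W, cl N W = W → ∀ x ∈ S, x ∈ W → S ⊆ W := by
    intro W hW x hxS hxW
    have hc : cl N (W ∩ S) = W ∩ S := by
      apply Finset.Subset.antisymm _ (subset_cl h.refl _)
      apply Finset.subset_inter
      · exact (cl_mono Finset.inter_subset_left).trans hW.subset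
      · exact (cl_mono Finset.inter_subset_right).trans hSc.subset
    have h4 := hSmin (W ∩ S) (by
      rw [Finset.mem_filter]
      exact ⟨Finset.mem_univ _, ⟨x, Finset.mem_inter.2 ⟨hxW, hxS⟩⟩, hc⟩)
    have h5 := Finset.eq_of_subset_of_card_le Finset.inter_subset_right h4
    exact Finset.inter_eq_right.1 h5
  have huniq : ∀ b ∈ S, a = b := by
    intro b hb
    apply hXY a b
    · rw [hXc a]; exact hsub _ (hXc a) a ha (hX a) hb
    · rw [hYc b]; exact hsub _ (hYc b) b hb (hY b) ha
  have hNa : N a ⊆ {a} := by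
    intro b hb
    have hbS : b ∈ S := by rw [← hSc]; exact mem_cl.2 ⟨a, ha, hb⟩
    rw [Finset.mem_singleton]
    exact (huniq b hbS).symm
  have h6 := Finset.card_le_card hNa
  have h7 := h.ce a
  have h8 : 0 < (cl N (N a)).card := Finset.card_pos.2 ⟨a, mem_cl.2 ⟨a, h.refl a, h.refl a⟩⟩
  rw [Finset.card_singleton] at h6
  omega

/-- There is no counterexample. -/
theorem no_CE [Nonempty V] (N : V → Finset V) (h : CE N) : False := by
  classical
  have hne : ((Finset.univ : Finset (V → Finset V)).filter CE).Nonempty :=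
    ⟨N, by rw [Finset.mem_filter]; exact ⟨Finset.mem_univ _, h⟩⟩
  obtain ⟨N₀, h₀, hmin⟩ := Finset.exists_min_image _ (fun N' => ∑ v, (N' v).card) hne
  rw [Finset.mem_filter] at h₀
  exact no_min_CE h₀.2 fun N' hN' =>
    hmin N' (by rw [Finset.mem_filter]; exact ⟨Finset.mem_univ _, hN'⟩)

/-- **Seymour's second neighbourhood conjecture**: every finite nonempty oriented graph has a
vertex whose second out-neighbourhood is at least as large as its first out-neighbourhood. -/
theorem seymour {V : Type*} [Fintype V] [Nonempty V] (D : OGraph V) :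
    ∃ v, (N1 D v).card ≤ (N2 D v).card := by
  classical
  by_contra hcon
  push Not at hcon
  refine no_CE (fun v => insert v (N1 D v)) ⟨?_, ?_, ?_⟩
  · intro x
    exact Finset.mem_insert_self x _
  · intro x y h1 h2
    simp only [Finset.mem_insert, mem_N1] at h1 h2
    rcases h1 with h1 | h1
    · exact h1.symm
    · rcases h2 with h2 | h2
      · exact h2
      · exact absurd h2 (D.asymm _ _ h1)
  · intro v
    have e : cl (fun v => insert v (N1 D v)) (insert v (N1 D v)) =
        insert v (N1 D v ∪ N2 D v) := by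
      ext x
      simp only [mem_cl, Finset.mem_insert, Finset.mem_union, mem_N1, mem_N2]
      constructor
      · rintro ⟨y, hy, hx⟩
        by_cases hxv : x = v
        · exact Or.inl hxv
        right
        by_cases hvx : D.arc v x
        · exact Or.inl hvx
        right
        refine ⟨hxv, hvx, ?_⟩
        rcases hy with hy | hy
        · subst hy
          rcases hx with hx | hx
          · exact absurd hx hxv
          · exact absurd hx hvx
        · rcases hx with hx | hx
          · subst hx
            exact absurd hy hvx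
          · exact ⟨y, hy, hx⟩
      · rintro (hx | hx | ⟨-, -, u, hu, hux⟩)
        · exact ⟨v, Or.inl rfl, Or.inl hx⟩
        · exact ⟨v, Or.inl rfl, Or.inr hx⟩
        · exact ⟨u, Or.inr hu, Or.inr hux⟩
    have hv : v ∉ N1 D v := fun hv => D.loopless v (mem_N1.1 hv)
    have hv2 : v ∉ N1 D v ∪ N2 D v := by
      rw [Finset.mem_union, not_or]
      exact ⟨hv, fun hv2 => (mem_N2.1 hv2).1 rfl⟩
    have hdis : Disjoint (N1 D v) (N2 D v) := by
      rw [Finset.disjoint_left]
      intro x h1 h2
      exact (mem_N2.1 h2).2.1 (mem_N1.1 h1)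
    have hc := hcon v
    show (cl (fun v => insert v (N1 D v)) (insert v (N1 D v))).card + 2 ≤
      2 * (insert v (N1 D v)).card
    rw [e, Finset.card_insert_of_notMem hv2, Finset.card_insert_of_notMem hv,
      Finset.card_union_of_disjoint hdis]
    omega

end Vale.Agent.P038.H447
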